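import Vale.Agent.P092.SX.O.Main
import Vale.Agent.P092.SX.EndT
import Vale.Agent.P092.H678.O.Cls
import Vale.Agent.P092.UN.NfQ

/-!
P092, [OV] (helper157): the class `UN.LatticeP` (all lattices of products of groups of type `A`)
and all its ICC overgroups of finite index.
-/

set_option linter.all false

open Filter Topology MeasureTheory

namespace Vale.Agent.P092.SX.OV

open Vale.Agent.P092.H678.OV (OverStmt HasOver hasOver_of superAll_virt)
open Vale.Agent.P092.RC (PG)
open Vale.Agent.P092.SNP (noncompact_of_adm)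

/-- **The class `UN.LatticeP`.** -/
theorem hasOver_latticeP {Γ : Type} [Group Γ] [Nontrivial Γ] (h : UN.LatticeP Γ) : HasOver Γ := by
  classical
  obtain ⟨hicc, J, _, N, k, _, _, i, hk, hN, hi, hl⟩ := H188.LatP.exists_pgl0 h
  have hk' := fun j => SN.lk ((UN.locK_iff _).1 (hk j))
  rcases isEmpty_or_nonempty J with hJ | ⟨⟨j₀⟩⟩
  · obtain ⟨x, y, hxy⟩ := exists_pair_ne Γ
    exact absurd (hi (funext fun j => hJ.elim j)) hxy
  · haveI : NoncompactSpace (∀ j, PG (k j) (N j + 1)) :=
      noncompact_of_adm ((admP_PG k N hk' hN).adm j₀)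
    exact hasOver_of (overStmt_PG k N hk' hN) i hi hl

/-- the class is invariant under isomorphisms -/
theorem latticeP_equiv {Γ Γ' : Type} [Group Γ] [Group Γ'] (e : Γ' ≃* Γ) (hicc : UN.ICC Γ')
    (h : UN.LatticeP Γ) : UN.LatticeP Γ' := by
  obtain ⟨-, J, hJ, hdec, k, hk, n, E, hE, hT, p, i, hEt, hkk, hp, hS, hi, hl⟩ := h
  refine ⟨hicc, J, hJ, hdec, k, hk, n, E, hE, hT, p, i.comp e.toMonoidHom, hEt, hkk, hp, hS,
    hi.comp e.injective, ?_⟩
  have h1 : (i.comp e.toMonoidHom).range = i.range := by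
    ext x
    constructor
    · rintro ⟨y, rfl⟩
      exact ⟨e y, rfl⟩
    · rintro ⟨y, rfl⟩
      exact ⟨e.symm y, congrArg i (e.apply_symm_apply y)⟩
  rw [h1]
  exact hl

/-- **ICC overgroups of finite index of the class `UN.LatticeP`**, all amplifications. -/
theorem superAll_virtP {Γ : Type} [Group Γ] (hicc : UN.ICC Γ) {Γ₀ : Subgroup Γ}
    (hfi : Γ₀.FiniteIndex) (h : UN.LatticeP Γ₀) : UN.SuperAll Γ := by
  rcases subsingleton_or_nontrivial Γ₀ with h0 | h0
  · haveI := hfi
    haveI : Finite Γ := by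
      haveI : Finite Γ₀ := inferInstance
      exact Finite.of_equiv _ (Subgroup.groupEquivQuotientProdSubgroup (s := Γ₀)).symm
    haveI : Subsingleton Γ := by
      refine subsingleton_of_forall_eq 1 fun g => ?_
      by_contra hg
      exact hicc g hg (Set.toFinite _)
    have e : Γ ≃* Γ₀ :=
      { toFun := fun _ => 1
        invFun := fun _ => 1
        left_inv := fun _ => Subsingleton.elim _ _
        right_inv := fun _ => Subsingleton.elim _ _
        map_mul' := fun _ _ => Subsingleton.elim _ _ }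
    exact EndT.superAllP Γ (latticeP_equiv e hicc h)
  · exact superAll_virt hicc hfi (hasOver_latticeP h)

/-- **The class `UN.LatticeQ`.** -/
theorem hasOver_latticeQ {Γ : Type} [Group Γ] [Nontrivial Γ] (h : UN.LatticeQ Γ) : HasOver Γ :=
  hasOver_latticeP (UN.latticeP_of_latticeQ h)

/-- **ICC overgroups of finite index of the class `UN.LatticeQ`**, all amplifications. -/
theorem superAll_virtQ {Γ : Type} [Group Γ] (hicc : UN.ICC Γ) {Γ₀ : Subgroup Γ}
    (hfi : Γ₀.FiniteIndex) (h : UN.LatticeQ Γ₀) : UN.SuperAll Γ :=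
  superAll_virtP hicc hfi (UN.latticeP_of_latticeQ h)

end Vale.Agent.P092.SX.OV
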