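import Vale.Agent.P092.H458.O.Gen
import Vale.Agent.P092.H962.NT.OutHH
import Vale.Agent.P092.H725.SN.GK4

/-!
P092, [OV], (O-PG) (helper157): the first family of legs over a product, for an irreducible system
`H678.OV.Sys` (port of `H962.NT.exPX1_of` from the model to an abstract system).
-/

set_option linter.all false

open scoped InnerProductSpace ENNReal LinearAlgebra.Projectivization
open Filter Topology ContinuousLinearMap MeasureTheory TopologicalSpace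

namespace Vale.Agent.P092.SX.OV

open Vale.Agent.P092.SR
open Vale.Agent.P092.H678.OV (Sys Hsq HTri GTri OverV OverStmt Icc)
open Vale.Agent.P092.H458.OV (pic_of pic2_of orb_of)
open Vale.Agent.P092.H21 (mT WT Hon nc nc_ne)
open Vale.Agent.P092.H85 (cdat)
open Vale.Agent.P092.H859.CL (st)
open Vale.Agent.P092.RC (GG PG YY y0 ct PicF)
open Vale.Agent.P092.SN (CY PH UD Adm bw un nm)
open Vale.Agent.P092.SNP (ZP)
open Vale.Agent.P092.H100.Gr (Gr)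
open Vale.Agent.P092.H76.Pur (NIS)
open Vale.Agent.P092.H35 (sp)
open Vale.Agent.P092.H368.SN (Cz)
open Vale.Agent.P092.H962.NT (OmN OutP outP_of msF_N exPX_of)
open Vale.Agent.P092.H725.SN (LegBF LeviGapK sz3_triK flt_Dq Dq_le gapK_ct spr_bw spr_bw'
  continuous_un)
open Vale.Agent.P092.H421.GrT (MskL sz3_mono sz3_exp_exp)
open Vale.Agent.P092.H790.CTA (SIZEG)

section sys

variable {E : Type} [Group E] [TopologicalSpace E] [IsTopologicalGroup E] [LocallyCompactSpace E]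
  [SecondCountableTopology E] [T2Space E] [MeasurableSpace E] [BorelSpace E]
  {Γ : Subgroup E} [DiscreteTopology Γ] [Countable Γ] [MeasurableSpace (E ⧸ Γ)]
  [BorelSpace (E ⧸ Γ)] {ν : Measure (E ⧸ Γ)} [IsProbabilityMeasure ν]
  (hν : ∀ g : E, ν.map (fun x => g • x) = ν)
  {κ κ' ℋ : Type} [Fintype κ] [Fintype κ'] [NormedAddCommGroup ℋ] [InnerProductSpace ℂ ℋ]
  [CompleteSpace ℋ] {V R₁ R₂ : Γ →* (ℋ →L[ℂ] ℋ)} {ξ : κ → ℋ} {ξ' : κ' → ℋ}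
  (hS : Sys V R₁ R₂) (hT : Tri V R₁ R₂ ξ) (hh : Hon R₁ R₂ ξ) (hT' : Tri R₁ V R₂ ξ')
  (hΓ : ∀ g : Γ, g ≠ 1 → Set.Infinite {y : Γ | ∃ h, y = h * g * h⁻¹})

include hS in
/-- sizes, compact means -/
theorem size_sys {k : Type} [NontriviallyNormedField k] {M : ℕ} {q : Γ → GG k M} (hq : PH q)
    {b : E} (hb : LeviGapK b)
    {m : Set Γ → (Lp ℋ 2 (cdat ν hν).μ →L[ℂ] Lp ℋ 2 (cdat ν hν).μ)}
    (hM : MskL (H34.Ind.lam (cdat ν hν) R₁) (H34.Ind.Xset (cdat ν hν) ℋ ∪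
      Set.range (H34.Ind.lam (cdat ν hν) R₂)) (H34.AmpE.nrm hν ξ) m) (i : κ) :
    SIZEG b (H34.Ind.pi (cdat ν hν) (V := V) hT.adjV) (H34.AmpE.nrm hν ξ i) m
        (fun γ => nm (q γ)) ∧
      SIZEG b (H34.Ind.pi (cdat ν hν) (V := V) hT.adjV) (H34.AmpE.nrm hν ξ i) m
        (fun γ => nm (ct (q γ))) := by
  obtain ⟨I', hI, ⟨b'⟩⟩ := H264.Amp.exists_basis (H264.Amp.pars_of_tri hT)
  have h1 := sz3_triK hν hT.adjV b' hT hS.irr hM (flt_Dq hq) (Dq_le hq) hb i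
  exact ⟨sz3_exp_exp hM (sz3_mono hM h1 fun γ => le_max_left _ _),
    sz3_exp_exp hM (sz3_mono hM h1 fun γ => le_max_right _ _)⟩

include hS hT' hΓ hh in
/-- `orb`, `orb'`, `size`, `size'` -/
theorem legBF_sys {kS : Type} [NontriviallyNormedField kS] [ProperSpace kS] [MeasurableSpace kS]
    [BorelSpace kS] {μ : Measure kS} [μ.IsAddHaarMeasure] {N M : ℕ}
    {k : Type} [NontriviallyNormedField k] {ι₀ : GG kS N →* E} {a a' : E →* PG kS (N + 1)}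
    (h : Adm ι₀ a a') {w : kSˣ} (hw : ‖(w : kS)‖ < 1) {q : Γ → GG k M} (hq : PH q)
    (ha : LeviGapK (ι₀ (bw w))) :
    LegBF μ w ι₀ (H34.Ind.pi (cdat ν hν) (V := V) hT.adjV)
      (H34.Ind.lam (cdat ν hν) R₁) (WT (cdat ν hν) R₂) (OmN hν ξ) (st (mT (cdat ν hν) hT)) q := by
  have hr0 : 0 < H368.SN.md w ^ (N + 1) := pow_pos (H368.SN.md_pos w) _
  have hr1 : H368.SN.md w ^ (N + 1) < 1 :=
    pow_lt_one₀ (H368.SN.md_nonneg w) (H368.SN.md_lt_one hw) (Nat.succ_ne_zero N)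
  have hM := MskL.of_msF (msF_N hν hT hΓ hT' hh)
  exact
    { orb := fun hj => ⟨_, hr0, hr1, orb_of hν (h.cι.comp (continuous_un hj))
        (spr_bw h w hj) hT hT'⟩
      orb' := fun hj => ⟨_, hr0, hr1, orb_of hν
        ((h.cι.comp H368.SN.ct_cont).comp (continuous_un hj)) (spr_bw' h w hj) hT hT'⟩
      size := fun i => (size_sys hν hS hT hq ha hM i).1
      size' := fun i => (size_sys hν hS hT hq (gapK_ct ha) hM i).2 }

variable {J : Type} [Fintype J] [DecidableEq J]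
  {k l : J → Type} [∀ j, NontriviallyNormedField (k j)] [∀ j, ProperSpace (k j)]
  [∀ j, NontriviallyNormedField (l j)] [∀ j, ProperSpace (l j)] {N : J → ℕ}

include hS hT' hΓ hh in
/-- **The output of the wall analysis.** -/
theorem exists_outS [Nonempty J] (hk : ∀ j, H933.LocK (k j)) (hl : ∀ j, H933.LocK (l j))
    {ι : ∀ j, GG (k j) (N j) →* E} {a a' : ∀ j, E →* PG (k j) (N j + 1)}
    {w : ∀ j, (k j)ˣ} {q : ∀ j, Γ → GG (l j) (N j)} (hA : ∀ j, Adm (ι j) (a j) (a' j))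
    (hcomm : ∀ i j, i ≠ j → ∀ g h, Commute (ι i g) (ι j h))
    (hw : ∀ j, ‖(w j : k j)‖ < 1) (hz : ∀ j, Cz (w j) (ι j) (a j) (a' j))
    (hq : ∀ j, PH (q j)) (fin : ∀ C : ℝ, {γ : Γ | ∀ j, nm (q j γ) ≤ C}.Finite) :
    ∃ (Br : ℝ → Set Γ) (τ : J → J), OutP hν hT ι w q Br τ := by
  obtain ⟨I', hI, ⟨b'⟩⟩ := H264.Amp.exists_basis (H264.Amp.pars_of_tri hT)
  have hP := pic_of hν hS hT hT'
  have htv := SNT.tv_tri hν hT.adjV b' hT
  refine outP_of hν hT hΓ hT' hh hP hk hl hA hcomm hw hz hq fin ?_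
  intro i j hj ht b hb c ε hε
  exact H34.HMK.posP_vec hν hT hh hT' hΓ hP htv hl
    (fun j => lt_of_lt_of_le zero_lt_two (hA j).hN) hq fin (hk i) (hA i).hN (hA i).cι
    (hA i).ca (hA i).comp (hw i) j hj (c := nc ξ) (nc_ne hT) ht hb c hε

end sys

section ex

variable {E : Type} [Group E] [TopologicalSpace E] [IsTopologicalGroup E] [LocallyCompactSpace E]
  [SecondCountableTopology E] [T2Space E] [MeasurableSpace E] [BorelSpace E]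
  {Γ : Subgroup E} [DiscreteTopology Γ] [Countable Γ] [MeasurableSpace (E ⧸ Γ)]
  [BorelSpace (E ⧸ Γ)] {ν : Measure (E ⧸ Γ)} [IsProbabilityMeasure ν]
  (hν : ∀ g : E, ν.map (fun x => g • x) = ν)
  {ℋ : Type} [NormedAddCommGroup ℋ] [InnerProductSpace ℂ ℋ]
  [CompleteSpace ℋ] {V R₁ R₂ : Γ →* (ℋ →L[ℂ] ℋ)} (hS : Sys V R₁ R₂)
  (hV : ∀ v, adjoint (V v) = V v⁻¹)
  (hΓ : ∀ g : Γ, g ≠ 1 → Set.Infinite {y : Γ | ∃ h, y = h * g * h⁻¹})
  {J : Type} [Fintype J] [DecidableEq J]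
  {k l : J → Type} [∀ j, NontriviallyNormedField (k j)] [∀ j, ProperSpace (k j)]
  [∀ j, MeasurableSpace (k j)] [∀ j, BorelSpace (k j)] {μ : ∀ j, Measure (k j)}
  [∀ j, (μ j).IsAddHaarMeasure]
  [∀ j, NontriviallyNormedField (l j)] [∀ j, ProperSpace (l j)] {N : J → ℕ}

include hS hΓ in
/-- **The first family of legs of an irreducible system over a product.** -/
theorem exPX_sys [Nonempty J]
    {ι : ∀ j, GG (k j) (N j) →* E} {a a' : ∀ j, E →* PG (k j) (N j + 1)}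
    {w : ∀ j, (k j)ˣ} {q : ∀ j, Γ → GG (l j) (N j)}
    (hk : ∀ j, H933.LocK (k j)) (hl : ∀ j, H933.LocK (l j)) (hA : ∀ j, Adm (ι j) (a j) (a' j))
    (hcomm : ∀ i j, i ≠ j → ∀ g h, Commute (ι i g) (ι j h))
    (hw : ∀ j, ‖(w j : k j)‖ < 1) (hz : ∀ j, Cz (w j) (ι j) (a j) (a' j))
    (hgap : ∀ j, LeviGapK (ι j (bw (w j))))
    (hq : ∀ j, PH (q j))
    (fin : ∀ C : ℝ, {γ : Γ | ∀ j, nm (q j γ) ≤ C}.Finite)
    (inj : ∀ γ, (∀ j, sp (l j) (N j + 1) (q j γ) = 1) → γ = 1)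
    (nis : ∀ j d, 1 ≤ d → d ≤ N j →
      NIS fun (γ : Γ) (x : Gr (l j) (Fin (N j + 1)) d) => q j γ • x)
    (nis' : ∀ j d, 1 ≤ d → d ≤ N j →
      NIS fun (γ : Γ) (x : Gr (l j) (Fin (N j + 1)) d) => ct (q j γ) • x) :
    ∃ (κ : Type) (_ : Fintype κ) (Ω : κ → Lp ℋ 2 (cdat ν hν).μ)
      (m : Set Γ → (Lp ℋ 2 (cdat ν hν).μ →L[ℂ] Lp ℋ 2 (cdat ν hν).μ)) (τ : J → J)
      (q' : ∀ j, Γ → GG (l (τ j)) (N j))
      (Ec F : ∀ j, YY (k j) (N j) → (CY (l (τ j)) (N j) →⋆ₐ[ℂ]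
        (Lp ℋ 2 (cdat ν hν).μ →L[ℂ] Lp ℋ 2 (cdat ν hν).μ))),
      (∀ j, SX.LegNF (μ j) (w j) (ι j) (a j) (a' j)
        (H34.Ind.pi (cdat ν hν) (V := V) hV)
        (H34.Ind.lam (cdat ν hν) R₁)
        (H34.Ind.Xset (cdat ν hν) ℋ ∪ Set.range (H34.Ind.lam (cdat ν hν) R₂)) Ω m (q' j)
        (ZP (k := fun i => l (τ i)) q' j) (Ec j) (F j)) ∧
      (∀ γ, (∀ j, sp (l (τ j)) (N j + 1) (q' j γ) = 1) → γ = 1) ∧
      (∀ C : ℝ, {γ : Γ | ∀ j, nm (q' j γ) ≤ C}.Finite) := by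
  obtain ⟨κ, iκ, ξ, hT, hh⟩ := hS.t₁
  obtain ⟨κ', iκ', ζ, hT'⟩ := hS.g₁
  obtain ⟨Br, τ, hO⟩ := exists_outS hν hS hT hh hT' hΓ hk hl hA hcomm hw hz hq fin
  obtain ⟨q', E₁, F₁, l1, i1, f1⟩ := exPX_of (μ := μ) hν hT hΓ hT' hh
    (pic_of hν hS hT hT') hA hw hz
    (fun i j q' hq' => legBF_sys hν hS hT hh hT' hΓ (hA i) (hw i) hq' (hgap i))
    hq fin inj nis nis' hO
  exact ⟨κ, iκ, _, _, τ, q', E₁, F₁, l1, i1, f1⟩

end ex

end Vale.Agent.P092.SX.OV
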