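import Vale.Agent.P092.SX.O.Leg
import Vale.Agent.P092.SX.FinT
import Vale.Agent.P092.SX.Jn
import Vale.Agent.P092.H124.PglD
import Vale.Agent.P092.H725.SN.GK3

/-!
P092, [OV], (O-PG) (helper157): the overlap for an irreducible system over a lattice of
`∏ PGL_(N j + 1)(k j)`, all local fields: `OverStmt`.
-/

set_option linter.all false

open scoped InnerProductSpace ENNReal LinearAlgebra.Projectivization
open Filter Topology ContinuousLinearMap MeasureTheory TopologicalSpace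

namespace Vale.Agent.P092.SX.OV

open Vale.Agent.P092.SR
open Vale.Agent.P092.H678.OV (Sys Hsq HTri GTri OverV OverStmt Icc)
open Vale.Agent.P092.H458.OV (pic_of pic2_of orb_of)
open Vale.Agent.P092.H85 (cdat)
open Vale.Agent.P092.RC (GG PG YY y0 ct PicF)
open Vale.Agent.P092.SN (CY PH UD Adm bw un nm)
open Vale.Agent.P092.SNP (AdmP ZP noncompact_of_adm)
open Vale.Agent.P092.H100.Gr (Gr)
open Vale.Agent.P092.H76.Pur (NIS)
open Vale.Agent.P092.H35 (sp)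
open Vale.Agent.P092.H368.SN (Cz cz_pi cz_pgl ad0_of)
open Vale.Agent.P092.H725.SN (LeviGapK leviGapK_PG)

section ex

variable {E : Type} [Group E] [TopologicalSpace E] [IsTopologicalGroup E] [LocallyCompactSpace E]
  [SecondCountableTopology E] [T2Space E] [MeasurableSpace E] [BorelSpace E]
  {Γ : Subgroup E} [DiscreteTopology Γ] [Countable Γ] [MeasurableSpace (E ⧸ Γ)]
  [BorelSpace (E ⧸ Γ)] {ν : Measure (E ⧸ Γ)} [IsProbabilityMeasure ν]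
  (hν : ∀ g : E, ν.map (fun x => g • x) = ν)
  {ℋ : Type} [NormedAddCommGroup ℋ] [InnerProductSpace ℂ ℋ]
  [CompleteSpace ℋ] {V R₁ R₂ : Γ →* (ℋ →L[ℂ] ℋ)} (hS : Sys V R₁ R₂)
  (hΓ : ∀ g : Γ, g ≠ 1 → Set.Infinite {y : Γ | ∃ h, y = h * g * h⁻¹})
  {J : Type} [Fintype J] [DecidableEq J]
  {k l : J → Type} [∀ j, NontriviallyNormedField (k j)] [∀ j, ProperSpace (k j)]
  [∀ j, MeasurableSpace (k j)] [∀ j, BorelSpace (k j)] {μ : ∀ j, Measure (k j)}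
  [∀ j, (μ j).IsAddHaarMeasure]
  [∀ j, NontriviallyNormedField (l j)] [∀ j, ProperSpace (l j)] {N : J → ℕ}

include hν hS hΓ in
/-- **The overlap of an irreducible system over a product**, mixed fields. -/
theorem over_sys [Nonempty J]
    {ι : ∀ j, GG (k j) (N j) →* E} {a a' : ∀ j, E →* PG (k j) (N j + 1)}
    {w : ∀ j, (k j)ˣ} {q : ∀ j, Γ → GG (l j) (N j)} (hA : AdmP ι a a')
    (hk : ∀ j, H933.LocK (k j)) (hl : ∀ j, H933.LocK (l j))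
    (h1 : ∀ i j, LegComm (k i) (l j) (μ i)) (h4 : ∀ i j, ClsStmt (k i) (l j) (μ i))
    (hcomm : ∀ i j, i ≠ j → ∀ g h, Commute (ι i g) (ι j h))
    (hw : ∀ j, ‖(w j : k j)‖ < 1) (hz : ∀ j, Cz (w j) (ι j) (a j) (a' j))
    (hgap : ∀ j, LeviGapK (ι j (bw (w j))))
    (hq : ∀ j, PH (q j))
    (fin : ∀ C : ℝ, {γ : Γ | ∀ j, nm (q j γ) ≤ C}.Finite)
    (inj : ∀ γ, (∀ j, sp (l j) (N j + 1) (q j γ) = 1) → γ = 1)
    (nis : ∀ j d, 1 ≤ d → d ≤ N j →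
      NIS fun (γ : Γ) (x : Gr (l j) (Fin (N j + 1)) d) => q j γ • x)
    (nis' : ∀ j d, 1 ≤ d → d ≤ N j →
      NIS fun (γ : Γ) (x : Gr (l j) (Fin (N j + 1)) d) => ct (q j γ) • x) : OverV V R₁ R₂ := by
  obtain ⟨κ, iκ, ξ, hT, hh⟩ := hS.t₁
  obtain ⟨κ₁, iκ₁, Ω₁, m₁, τ₁, q₁, E₁, F₁, l1, i1, d1⟩ := exPX_sys (μ := μ) hν hS hT.adjV hΓ hk hl
    hA.adm hcomm hw hz hgap hq fin inj nis nis'
  obtain ⟨κ₂, iκ₂, Ω₂, m₂, τ₂, q₂, E₂, F₂, l2, i2, d2⟩ := exPX_sys (μ := μ) hν hS.swap hT.adjV hΓ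
    hk hl hA.adm hcomm hw hz hgap hq fin inj nis nis'
  obtain ⟨I', hI, ⟨b'⟩⟩ := H264.Amp.exists_basis (H264.Amp.pars_of_tri hT)
  obtain ⟨Q₁, Q₂, c1, c2, c12⟩ := clegsP_of (l₁ := fun j => l (τ₁ j)) (l₂ := fun j => l (τ₂ j)) hA
    (fun j => hl (τ₁ j)) (fun j => hl (τ₂ j)) (fun j => h1 j (τ₁ j)) (fun j => h1 j (τ₂ j))
    (fun j => h4 j (τ₁ j)) (fun j => h4 j (τ₂ j)) (pic2_of hν hS hT)
    (SNT.tv_tri hν hT.adjV b' hT) l1 l2 i1 i2 d1 d2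
  exact H264.Amp.over_of_legs hν hT (X := H34.Ind.Xset (cdat ν hν) ℋ)
    (fun S hS => ⟨S, hS, rfl⟩) c1 c2 c12

end ex

/-- a trivial group -/
theorem over_of_subsingleton {Γ ℋ : Type} [Group Γ] [Subsingleton Γ] [NormedAddCommGroup ℋ]
    [InnerProductSpace ℂ ℋ] [CompleteSpace ℋ] {V R₁ R₂ : Γ →* (ℋ →L[ℂ] ℋ)}
    (hS : Sys V R₁ R₂) : OverV V R₁ R₂ := by
  obtain ⟨κ, iκ, ξ, hT, hh⟩ := hS.t₁
  obtain ⟨i, hi⟩ := hT.ne
  refine ⟨1, fun _ => ξ i, ‖ξ i‖ ^ 2, pow_pos (norm_pos_iff.2 hi) 2, fun g => ⟨0, 0, 1, 1, ?_⟩⟩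
  rw [Subsingleton.elim g 1, map_one, map_one, map_one]
  change ‖ξ i‖ ^ 2 ≤ ‖⟪ξ i, ξ i⟫_ℂ‖
  rw [inner_self_eq_norm_sq_to_K, norm_pow]
  simp

/-- **(O-PG)**: the core statement for abstract systems, `∏ PGL_(N j + 1)(k j)`, all local
fields. -/
theorem overStmt_PG {J : Type} [Fintype J] (k : J → Type)
    [∀ j, NontriviallyNormedField (k j)] [∀ j, ProperSpace (k j)] (N : J → ℕ)
    (hk : ∀ j, H933.LocK (k j)) (hN : ∀ j, 2 ≤ N j) : OverStmt (∀ j, PG (k j) (N j + 1)) := by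
  classical
  intro Γ hΓ hicc ℋ _ _ _ V R₁ R₂ hS
  rcases isEmpty_or_nonempty J with hJ0 | hJ1
  · haveI : Subsingleton Γ :=
      ⟨fun x y => Subtype.ext (funext fun j => hJ0.elim j)⟩
    exact over_of_subsingleton hS
  · letI : MeasurableSpace (∀ j, PG (k j) (N j + 1)) := borel _
    haveI : BorelSpace (∀ j, PG (k j) (N j + 1)) := ⟨rfl⟩
    haveI hd : DiscreteTopology Γ := hΓ.disc
    haveI hc : Countable Γ := H790.countable_of_discrete (E := ∀ j, PG (k j) (N j + 1)) Γ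
    letI : MeasurableSpace ((∀ j, PG (k j) (N j + 1)) ⧸ Γ) := borel _
    haveI : BorelSpace ((∀ j, PG (k j) (N j + 1)) ⧸ Γ) := ⟨rfl⟩
    obtain ⟨ν, hP', hν⟩ := H515.IsLattice.exists_prob (Λ := Γ) ⟨hΓ.disc, hΓ.covol⟩
    letI : ∀ j, MeasurableSpace (k j) := fun j => borel _
    haveI : ∀ j, BorelSpace (k j) := fun j => ⟨rfl⟩
    have hA := admP_PG k N hk hN
    obtain ⟨l, i1, i2, hl, hcd⟩ := H124.Pgl.exists_coord k N hk
    obtain ⟨q, hq⟩ := hcd Γ hΓ.covol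
    choose c h0 h1 using fun j => NormedField.exists_norm_lt_one (k j)
    exact over_sys (μ := fun j => (Measure.addHaar : Measure (k j))) (l := l) hν hS hicc hA hk hl
      (fun i j => (joints (k i) (l j) _ (hk i) (hl j)).1)
      (fun i j => (joints (k i) (l j) _ (hk i) (hl j)).2)
      (fun i j hij g h => Pi.mulSingle_commute hij _ _)
      (w := fun j => Units.mk0 (c j) (norm_pos_iff.1 (h0 j))) (q := q) h1
      (fun j => cz_pi j (cz_pgl (ad0_of (H387.Ad.adm_pgl (hk j) (hN j))) _))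
      (fun j => leviGapK_PG k N hk hN j _) hq.ph hq.fin hq.inj hq.nis hq.nis'

end Vale.Agent.P092.SX.OV
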